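import Vale.Agent.P201x95.Filtration
import Vale.Agent.P194.FreeResNilp

/-!
# P201 (helper95): group algebras of extensions with free kernel have no zero divisors
-/

namespace Vale.Agent.P201x95

open MonoidAlgebra Vale.Agent.P194

variable {K : Type*} [CommRing K] {G Q : Type*} [Group G] [Group Q] (φ : G →* Q)

lemma kerIdeal_twoSided : IsTwoSided (kerIdeal K φ) where
  left r a ha := by
    rw [mem_kerIdeal] at ha ⊢
    rw [map_mul, ha, mul_zero]
  right a r ha := by
    rw [mem_kerIdeal] at ha ⊢
    rw [map_mul, ha, zero_mul]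

/-! ### The involution -/

/-- The monoid homomorphism `g ↦ op g⁻¹`. -/
noncomputable def invOp (K : Type*) [CommRing K] (G : Type*) [Group G] :
    G →* (MonoidAlgebra K G)ᵐᵒᵖ where
  toFun g := MulOpposite.op (single g⁻¹ 1)
  map_one' := by simp [one_def]
  map_mul' a b := by
    rw [← MulOpposite.op_mul, single_mul_single, mul_inv_rev, mul_one]

/-- The anti-involution of `K[G]` as an algebra map to the opposite algebra. -/
noncomputable def invAlg (K : Type*) [CommRing K] (G : Type*) [Group G] :
    MonoidAlgebra K G →ₐ[K] (MonoidAlgebra K G)ᵐᵒᵖ :=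
  MonoidAlgebra.lift K _ G (invOp K G)

/-- The anti-involution `g ↦ g⁻¹` of `K[G]`. -/
noncomputable def inv' (K : Type*) [CommRing K] (G : Type*) [Group G] :
    MonoidAlgebra K G →ₗ[K] MonoidAlgebra K G :=
  (MulOpposite.opLinearEquiv K).symm.toLinearMap ∘ₗ (invAlg K G).toLinearMap

lemma inv'_apply (a : MonoidAlgebra K G) : inv' K G a = (invAlg K G a).unop := rfl

@[simp] lemma inv'_single (g : G) (r : K) : inv' K G (single g r) = single g⁻¹ r := by
  rw [inv'_apply, invAlg, MonoidAlgebra.lift_single]
  simp [invOp]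

lemma inv'_mul (a b : MonoidAlgebra K G) : inv' K G (a * b) = inv' K G b * inv' K G a := by
  rw [inv'_apply, inv'_apply, inv'_apply, map_mul, MulOpposite.unop_mul]

lemma inv'_inv' (a : MonoidAlgebra K G) : inv' K G (inv' K G a) = a := by
  induction a using MonoidAlgebra.induction_linear with
  | zero => simp
  | add a b ha hb => rw [map_add, map_add, ha, hb]
  | single g r => simp

lemma map_inv' (a : MonoidAlgebra K G) :
    mapDomainAlgHom K K φ (inv' K G a) = inv' K Q (mapDomainAlgHom K K φ a) := by
  induction a using MonoidAlgebra.induction_linear with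
  | zero => simp
  | add a b ha hb => rw [map_add, map_add, ha, hb, map_add, map_add]
  | single g r => simp

lemma inv'_mem (a : MonoidAlgebra K G) (ha : a ∈ kerIdeal K φ) : inv' K G a ∈ kerIdeal K φ := by
  rw [mem_kerIdeal] at ha ⊢
  rw [map_inv', ha, map_zero]

/-! ### The Fox derivative on `K[G]` -/

section fox
variable {φ} {X : Type*} (ε : φ.ker ≃* FreeGroup X)

/-- The embedding `K[F] → K[G]`. -/
noncomputable def jmap : MonoidAlgebra K (FreeGroup X) →ₐ[K] MonoidAlgebra K G :=
  mapDomainAlgHom K K (φ.ker.subtype.comp ε.symm.toMonoidHom)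

lemma jmap_single (ν : φ.ker) (r : K) :
    jmap ε (single (ε ν) r) = single (ν : G) r := by
  simp [jmap]

/-- The crossed homomorphism `ker φ → (X →₀ K[G])`. -/
noncomputable def dker (ν : φ.ker) : X →₀ MonoidAlgebra K G :=
  (fox (K := K) (ε ν)).mapRange (jmap ε) (map_zero _)

lemma dker_mul (ν μ : φ.ker) :
    dker (K := K) ε (ν * μ) = dker ε ν + single (ν : G) (1 : K) • dker ε μ := by
  ext1 x
  simp only [dker, map_mul, fox_mul, Finsupp.mapRange_apply, Finsupp.add_apply,
    Finsupp.smul_apply, smul_eq_mul, map_add, jmap_single]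

/-- The basis elements `x - 1`. -/
noncomputable def ebasis (x : X) : MonoidAlgebra K G :=
  single ((ε.symm (FreeGroup.of x) : φ.ker) : G) 1 - 1

lemma ebasis_eq (x : X) :
    ebasis (K := K) ε x = jmap ε (single (FreeGroup.of x) (1 : K) - 1) := by
  rw [map_sub, map_one, ebasis]
  congr 1
  have := jmap_single (K := K) ε (ε.symm (FreeGroup.of x)) 1
  rw [MulEquiv.apply_symm_apply] at this
  exact this.symm

lemma ebasis_mem (x : X) : ebasis (K := K) ε x ∈ kerIdeal K φ := by
  rw [mem_kerIdeal, ebasis, map_sub, map_one]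
  have : φ ((ε.symm (FreeGroup.of x) : φ.ker) : G) = 1 := (ε.symm (FreeGroup.of x)).2
  simp [this, one_def]

lemma eval_dker (ν : φ.ker) :
    Finsupp.linearCombination (MonoidAlgebra K G) (ebasis (K := K) ε) (dker ε ν) =
      single (ν : G) 1 - 1 := by
  have h := congrArg (jmap ε) (foxEval_fox (K := K) (ε ν))
  rw [map_sub, map_one, jmap_single] at h
  rw [← h, foxEval, Finsupp.linearCombination_apply, Finsupp.linearCombination_apply, dker,
    Finsupp.sum_mapRange_index (by simp), map_finsuppSum]
  refine Finsupp.sum_congr fun x _ => ?_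
  rw [smul_eq_mul, smul_eq_mul, map_mul, ebasis_eq]

variable (s : Q → G) (hs : ∀ g, φ (s (φ g)) = φ g)

/-- The kernel part of `g` relative to the section `s`. -/
def npart (hs : ∀ g, φ (s (φ g)) = φ g) (g : G) : φ.ker :=
  ⟨(s (φ g))⁻¹ * g, by rw [MonoidHom.mem_ker, map_mul, map_inv, hs, inv_mul_cancel]⟩

/-- The Fox derivative on group elements of `G`. -/
noncomputable def Dg (g : G) : X →₀ MonoidAlgebra K G :=
  single (s (φ g)) (1 : K) • dker ε (npart s hs g)

/-- The Fox derivative on `K[G]`. -/
noncomputable def DG : MonoidAlgebra K G →ₗ[K] (X →₀ MonoidAlgebra K G) :=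
  (Finsupp.linearCombination K (Dg (K := K) ε s hs)) ∘ₗ
    (MonoidAlgebra.coeffLinearEquiv K).toLinearMap

@[simp] lemma DG_single (g : G) (r : K) :
    DG ε s hs (single g r) = r • Dg (K := K) ε s hs g := by
  simp [DG]

lemma Dg_mul (g : G) (ν : φ.ker) :
    Dg (K := K) ε s hs (g * ν) = Dg ε s hs g + single g (1 : K) • dker ε ν := by
  have h1 : φ (g * ν) = φ g := by rw [map_mul, (ν.2 : φ ν = 1), mul_one]
  have h2 : npart s hs (g * ν) = npart s hs g * ν := by
    apply Subtype.ext
    simp [npart, h1, mul_assoc]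
  rw [Dg, Dg, h1, h2, dker_mul, smul_add, ← mul_smul, single_mul_single]
  simp [npart]

/-- The generators `g (ν - 1)` of the kernel ideal. -/
noncomputable def gen (g : G) (ν : φ.ker) : MonoidAlgebra K G :=
  single g 1 * (single (ν : G) 1 - 1)

lemma DG_gen (g : G) (ν : φ.ker) :
    DG ε s hs (gen (K := K) g ν) = single g (1 : K) • dker ε ν := by
  rw [gen, mul_sub, mul_one, single_mul_single, map_sub, DG_single, DG_single, mul_one,
    one_smul, one_smul, Dg_mul, add_sub_cancel_left]

lemma single_mul_gen (h g : G) (c : K) (ν : φ.ker) :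
    single h c * gen (K := K) g ν = c • gen (h * g) ν := by
  rw [gen, gen, ← mul_assoc, single_mul_single, mul_one, ← smul_mul_assoc, smul_single,
    smul_eq_mul, mul_one]

lemma mem_span_gen {a : MonoidAlgebra K G} (ha : a ∈ kerIdeal K φ) :
    a ∈ Submodule.span K (Set.range fun p : G × φ.ker => gen (K := K) p.1 p.2) := by
  have h := kerIdeal_le_kerSpan φ ha
  refine Submodule.span_le.2 ?_ h
  rintro _ ⟨ν, g, rfl⟩
  apply Submodule.subset_span
  refine ⟨(g, (MulAut.conjNormal g⁻¹ : φ.ker ≃* φ.ker) ν), ?_⟩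
  simp [gen, mul_sub, sub_mul, single_mul_single, mul_assoc]

lemma DG_mul (r a : MonoidAlgebra K G) (ha : a ∈ kerIdeal K φ) :
    DG ε s hs (r * a) = r • DG ε s hs a := by
  have h := mem_span_gen ha
  clear ha
  induction h using Submodule.span_induction with
  | mem z hz =>
    obtain ⟨⟨g, ν⟩, rfl⟩ := hz
    induction r using MonoidAlgebra.induction_linear with
    | zero => simp
    | add u v hu hv => rw [add_mul, map_add, hu, hv, add_smul]
    | single h c =>
      simp only
      rw [single_mul_gen, map_smul, DG_gen, DG_gen, ← mul_smul, single_mul_single, mul_one,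
        ← smul_assoc, smul_single, smul_eq_mul, mul_one]
  | zero => simp
  | add u v _ _ hu hv => rw [mul_add, map_add, hu, hv, map_add, smul_add]
  | smul c u _ hu => rw [mul_smul_comm, map_smul, hu, map_smul, smul_comm]

lemma eval_DG (a : MonoidAlgebra K G) (ha : a ∈ kerIdeal K φ) :
    Finsupp.linearCombination (MonoidAlgebra K G) (ebasis (K := K) ε) (DG ε s hs a) = a := by
  have h := mem_span_gen ha
  clear ha
  induction h using Submodule.span_induction with
  | mem z hz =>
    obtain ⟨⟨g, ν⟩, rfl⟩ := hz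
    simp only
    rw [DG_gen, map_smul, eval_dker, smul_eq_mul, gen]
  | zero => simp
  | add u v _ _ hu hv => rw [map_add, map_add, hu, hv]
  | smul c u _ hu => rw [map_smul, LinearMap.map_smul_of_tower, hu]

end fox

/-- If `φ : G → Q` has free kernel and `K[Q]` has no zero divisors then `K[G]` has no zero
divisors. -/
theorem noZeroDivisors_of_free_ker [IsFreeGroup φ.ker] [NoZeroDivisors (MonoidAlgebra K Q)] :
    NoZeroDivisors (MonoidAlgebra K G) := by
  classical
  let s : Q → G := fun q => if h : ∃ g, φ g = q then h.choose else 1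
  have hs : ∀ g, φ (s (φ g)) = φ g := by
    intro g
    have h : ∃ g', φ g' = φ g := ⟨g, rfl⟩
    simp only [s, dif_pos h]
    exact h.choose_spec
  let ε : φ.ker ≃* FreeGroup (IsFreeGroup.Generators φ.ker) := IsFreeGroup.toFreeGroup φ.ker
  refine noZeroDivisors_of_fox (K := K) (I := kerIdeal K φ) (ebasis ε) (DG ε s hs) (inv' K G)
    (kerIdeal_twoSided φ) (ebasis_mem ε) (DG_mul ε s hs) (eval_DG ε s hs) inv'_mul inv'_inv'
    (inv'_mem φ) ?_ ?_
  · intro a b hab
    rw [mem_kerIdeal, map_mul] at hab
    rw [mem_kerIdeal, mem_kerIdeal]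
    exact mul_eq_zero.1 hab
  · intro a ha
    exact eq_zero_of_mem_kerIdeal_pow φ isFreeGroup_resNilp a ha

end Vale.Agent.P201x95
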